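import Mathlib

/-!
# Random k-SAT: a formula with few clauses is satisfiable (Hall's theorem + union bound)

A formula is `F : Fin m → Fin k → Fin n × Bool` (clause `i`, position `p` carries the literal
`(x, b)`, satisfied by `σ` iff `σ x = b`).  If `3 ≤ k` and `10 m ≤ n` then at most a fraction
`1 / n ^ 2` of all formulas is unsatisfiable.
-/

namespace KSatHall

open Finset

variable {k n m : ℕ}

/-- satisfiability of a formula -/
def Sat (F : Fin m → Fin k → Fin n × Bool) : Prop :=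
  ∃ σ : Fin n → Bool, ∀ i, ∃ p, σ (F i p).1 = (F i p).2

/-- Hall violation: more clauses than variables -/
def Bad (F : Fin m → Fin k → Fin n × Bool) (s : Finset (Fin m)) (W : Finset (Fin n)) : Prop :=
  ∀ i ∈ s, ∀ p, (F i p).1 ∈ W

theorem exists_bad (hmn : m ≤ n) {F : Fin m → Fin k → Fin n × Bool} (h : ¬ Sat F) :
    ∃ s : Finset (Fin m), ∃ W : Finset (Fin n), 1 ≤ s.card ∧ W.card + 1 = s.card ∧ Bad F s W := by
  classical
  set t : Fin m → Finset (Fin n) := fun i => univ.image fun p => (F i p).1 with ht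
  have h1 : ¬ ∀ s : Finset (Fin m), s.card ≤ (s.biUnion t).card := by
    intro hall
    obtain ⟨f, hf, hft⟩ := (Finset.all_card_le_biUnion_card_iff_exists_injective t).1 hall
    apply h
    have hp : ∀ i, ∃ p, (F i p).1 = f i := by
      intro i
      have := hft i
      rw [ht] at this
      simpa using this
    choose p hp using hp
    refine ⟨fun x => if hx : ∃ i, f i = x then (F hx.choose (p hx.choose)).2 else true,
      fun i => ⟨p i, ?_⟩⟩
    have hx : ∃ i', f i' = (F i (p i)).1 := ⟨i, (hp i).symm⟩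
    have hi : hx.choose = i := hf (by rw [hx.choose_spec, hp i])
    simp only [dif_pos hx]
    rw [hi]
  push Not at h1
  obtain ⟨s, hs⟩ := h1
  have hs1 : 1 ≤ s.card := by omega
  have hsm : s.card ≤ m := by simpa using Finset.card_le_univ s
  obtain ⟨W, hW1, hW2⟩ := Finset.exists_superset_card_eq (s := s.biUnion t) (n := s.card - 1)
    (by omega) (by simp; omega)
  refine ⟨s, W, hs1, by omega, fun i hi q => hW1 ?_⟩
  exact Finset.mem_biUnion.2 ⟨i, hi, by simp [ht]⟩

theorem card_bad (s : Finset (Fin m)) (W : Finset (Fin n)) [DecidablePred fun F => Bad (k := k) F s W] :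
    (univ.filter fun F : Fin m → Fin k → Fin n × Bool => Bad F s W).card
      = (2 * W.card) ^ (k * s.card) * (2 * n) ^ (k * (m - s.card)) := by
  classical
  have h1 : (univ.filter fun F : Fin m → Fin k → Fin n × Bool => Bad F s W)
      = Fintype.piFinset fun i : Fin m => Fintype.piFinset fun _ : Fin k =>
          if i ∈ s then W ×ˢ (univ : Finset Bool) else univ := by
    ext F
    rw [Fintype.mem_piFinset]
    constructor
    · intro h i
      have h := (Finset.mem_filter.1 h).2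
      rw [Fintype.mem_piFinset]
      intro p
      by_cases hi : i ∈ s
      · simp [hi, h i hi p]
      · simp [hi]
    · intro h
      refine Finset.mem_filter.2 ⟨mem_univ _, fun i hi p => ?_⟩
      have := Fintype.mem_piFinset.1 (h i) p
      simpa [hi] using this
  rw [h1, Fintype.card_piFinset]
  simp only [Fintype.card_piFinset, prod_const, card_univ, Fintype.card_fin]
  have h2 : ∀ i : Fin m, (if i ∈ s then W ×ˢ (univ : Finset Bool) else univ).card ^ k
      = if i ∈ s then (2 * W.card) ^ k else (2 * n) ^ k := by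
    intro i
    split_ifs
    · simp [mul_comm]
    · simp [mul_comm]
  simp only [h2]
  rw [Finset.prod_ite]
  simp only [prod_const]
  have h3 : (univ.filter fun i => i ∈ s) = s := by ext; simp
  have h4 : (univ.filter fun i => i ∉ s).card = m - s.card := by
    have : (univ.filter fun i => i ∉ s) = sᶜ := by ext; simp
    rw [this, card_compl, Fintype.card_fin]
  rw [h3, h4, ← pow_mul, ← pow_mul]

/-- scalar estimate of one term of the union bound -/
theorem term_bound (hk : 3 ≤ k) (hn : 0 < n) (hm : 10 * m ≤ n) {j : ℕ} (hj : 1 ≤ j) (hjm : j ≤ m) :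
    (m.choose j : ℝ) * (n.choose (j - 1)) * (((j - 1 : ℕ) : ℝ) / n) ^ (k * j) ≤ 1 / (n : ℝ) ^ 2 * (32 / 100) ^ j := by
  have hn0 : (0 : ℝ) < n := by exact_mod_cast hn
  rcases Nat.lt_or_ge 1 j with h1 | h1
  swap
  · have : j = 1 := le_antisymm h1 hj
    subst this
    have : k ≠ 0 := by omega
    simp [this]
  obtain ⟨i, rfl⟩ : ∃ i, j = i + 1 := ⟨j - 1, by omega⟩
  have hi : 1 ≤ i := by omega
  simp only [Nat.add_sub_cancel]
  have hi0 : (0 : ℝ) < i := by exact_mod_cast hi
  have hin : (i : ℝ) / n ≤ 1 / 10 := by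
    rw [div_le_div_iff₀ hn0 (by norm_num)]
    have : (10 : ℝ) * ((i : ℝ) + 1) ≤ n := by
      have h2 : 10 * (i + 1) ≤ n := by omega
      exact_mod_cast h2
    linarith
  have hin0 : 0 ≤ (i : ℝ) / n := by positivity
  have hmn : (m : ℝ) / n ≤ 1 / 10 := by
    rw [div_le_div_iff₀ hn0 (by norm_num)]
    have : (10 : ℝ) * m ≤ n := by exact_mod_cast hm
    linarith
  have hm0 : 0 ≤ (m : ℝ) / n := by positivity
  -- reduce to k = 3
  have e1 : ((i : ℝ) / n) ^ (k * (i + 1)) ≤ ((i : ℝ) / n) ^ (3 * (i + 1)) :=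
    pow_le_pow_of_le_one hin0 (by linarith) (Nat.mul_le_mul_right _ hk)
  have c1 : (m.choose (i + 1) : ℝ) ≤ (m : ℝ) ^ (i + 1) / (i + 1).factorial := Nat.choose_le_pow_div _ _
  have c2 : (n.choose i : ℝ) ≤ (n : ℝ) ^ i / i.factorial := Nat.choose_le_pow_div _ _
  have f1 : (i : ℝ) ^ i / i.factorial ≤ Real.exp i := Real.pow_div_factorial_le_exp _ hi0.le _
  have f2 : (i : ℝ) ^ (i + 1) / (i + 1).factorial ≤ Real.exp i :=
    Real.pow_div_factorial_le_exp _ hi0.le _
  have hE : Real.exp i * Real.exp i ≤ 8 ^ i := by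
    rw [← Real.exp_add, show (i : ℝ) + i = i * 2 by ring, Real.exp_nat_mul]
    refine pow_le_pow_left₀ (Real.exp_pos _).le ?_ _
    have : Real.exp 2 = Real.exp 1 * Real.exp 1 := by rw [← Real.exp_add]; norm_num
    rw [this]
    have h3 := Real.exp_one_lt_d9
    have h4 := Real.exp_pos 1
    nlinarith
  calc (m.choose (i + 1) : ℝ) * (n.choose i) * ((i : ℝ) / n) ^ (k * (i + 1))
      ≤ ((m : ℝ) ^ (i + 1) / (i + 1).factorial) * ((n : ℝ) ^ i / i.factorial)
          * ((i : ℝ) / n) ^ (3 * (i + 1)) := by gcongr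
    _ = ((m : ℝ) / n) ^ (i + 1) * ((i : ℝ) / n) ^ (i + 2)
          * (((i : ℝ) ^ i / i.factorial) * ((i : ℝ) ^ (i + 1) / (i + 1).factorial)) := by
        have e2 : ((i : ℝ) / n) ^ (3 * (i + 1))
            = ((i : ℝ) / n) ^ (i + 1) * ((i : ℝ) / n) ^ (i + 2) * ((i : ℝ) / n) ^ i := by
          rw [← pow_add, ← pow_add]; congr 1; ring
        have e3 : (n : ℝ) ^ i * ((i : ℝ) / n) ^ i = (i : ℝ) ^ i := by
          rw [← mul_pow]; congr 1; field_simp
        have e4 : (m : ℝ) ^ (i + 1) * ((i : ℝ) / n) ^ (i + 1)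
            = ((m : ℝ) / n) ^ (i + 1) * (i : ℝ) ^ (i + 1) := by
          rw [← mul_pow, ← mul_pow]; congr 1; ring
        rw [e2]
        calc (m : ℝ) ^ (i + 1) / (i + 1).factorial * ((n : ℝ) ^ i / i.factorial)
            * (((i : ℝ) / n) ^ (i + 1) * ((i : ℝ) / n) ^ (i + 2) * ((i : ℝ) / n) ^ i)
            = ((m : ℝ) ^ (i + 1) * ((i : ℝ) / n) ^ (i + 1)) * ((n : ℝ) ^ i * ((i : ℝ) / n) ^ i)
              * ((i : ℝ) / n) ^ (i + 2) / ((i + 1).factorial * i.factorial) := by ring
          _ = _ := by rw [e3, e4]; ring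
    _ ≤ (1 / 10) ^ (i + 1) * ((1 / 10) ^ i * ((i : ℝ) / n) ^ 2) * 8 ^ i := by
        rw [pow_add ((i : ℝ) / n) i 2]
        gcongr
        exact (mul_le_mul f1 f2 (by positivity) (Real.exp_pos _).le).trans hE
    _ = 1 / (n : ℝ) ^ 2 * ((1 / 10) * ((8 / 100) ^ i * (i : ℝ) ^ 2)) := by
        rw [div_pow 8 100, div_pow 1 10, div_pow 1 10, div_pow (i : ℝ) n]
        have h10 : (100 : ℝ) ^ i = 10 ^ i * 10 ^ i := by rw [← mul_pow]; norm_num
        rw [h10, pow_succ (10 : ℝ) i]
        field_simp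
        ring
    _ ≤ 1 / (n : ℝ) ^ 2 * ((1 / 10) * ((8 / 100) ^ i * 4 ^ i)) := by
        gcongr
        have h2 : (i : ℝ) ≤ 2 ^ i := by exact_mod_cast (Nat.lt_two_pow_self).le
        calc (i : ℝ) ^ 2 ≤ (2 ^ i) ^ 2 := by gcongr
          _ = 4 ^ i := by rw [← pow_mul, mul_comm, pow_mul]; norm_num
    _ = 1 / (n : ℝ) ^ 2 * ((1 / 10) * (32 / 100) ^ i) := by
        rw [← mul_pow]; norm_num
    _ ≤ 1 / (n : ℝ) ^ 2 * (32 / 100) ^ (i + 1) := by
        gcongr
        rw [pow_succ]
        have : (0 : ℝ) < (32 / 100) ^ i := by positivity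
        nlinarith

theorem few_clauses (hk : 3 ≤ k) (hn : 0 < n) (hm : 10 * m ≤ n)
    [DecidablePred fun F : Fin m → Fin k → Fin n × Bool => ¬ Sat F] :
    ((univ.filter fun F : Fin m → Fin k → Fin n × Bool => ¬ Sat F).card : ℝ)
      ≤ 1 / (n : ℝ) ^ 2 * Fintype.card (Fin m → Fin k → Fin n × Bool) := by
  classical
  have hn0 : (0 : ℝ) < n := by exact_mod_cast hn
  have hmn : m ≤ n := by omega
  have hall : Fintype.card (Fin m → Fin k → Fin n × Bool) = (2 * n) ^ (k * m) := by
    simp only [Fintype.card_fun, Fintype.card_prod, Fintype.card_fin, Fintype.card_bool]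
    rw [← pow_mul, mul_comm n 2]
  -- union bound
  have h1 : (univ.filter fun F : Fin m → Fin k → Fin n × Bool => ¬ Sat F) ⊆
      (Finset.Icc 1 m).biUnion fun j => ((univ : Finset (Fin m)).powersetCard j).biUnion fun s =>
        ((univ : Finset (Fin n)).powersetCard (j - 1)).biUnion fun W =>
          univ.filter fun F : Fin m → Fin k → Fin n × Bool => Bad F s W := by
    intro F hF
    simp only [mem_filter, mem_univ, true_and] at hF
    obtain ⟨s, W, hs, hW, hb⟩ := exists_bad hmn hF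
    have hsm : s.card ≤ m := by simpa using Finset.card_le_univ s
    simp only [mem_biUnion, mem_Icc, mem_powersetCard, subset_univ, true_and, mem_filter, mem_univ]
    exact ⟨s.card, ⟨hs, hsm⟩, s, rfl, W, by omega, hb⟩
  have h2 : ((univ.filter fun F : Fin m → Fin k → Fin n × Bool => ¬ Sat F).card : ℝ)
      ≤ ∑ j ∈ Finset.Icc 1 m, (m.choose j : ℝ) * (n.choose (j - 1)) *
          ((2 * ((j - 1 : ℕ) : ℝ)) ^ (k * j) * (2 * (n : ℝ)) ^ (k * (m - j))) := by
    have h3 := (Finset.card_le_card h1).trans (Finset.card_biUnion_le)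
    have h4 : (∑ j ∈ Finset.Icc 1 m, (((univ : Finset (Fin m)).powersetCard j).biUnion fun s =>
        ((univ : Finset (Fin n)).powersetCard (j - 1)).biUnion fun W =>
          univ.filter fun F : Fin m → Fin k → Fin n × Bool => Bad F s W).card)
        ≤ ∑ j ∈ Finset.Icc 1 m, m.choose j * n.choose (j - 1) *
          ((2 * (j - 1)) ^ (k * j) * (2 * n) ^ (k * (m - j))) := by
      refine Finset.sum_le_sum fun j hj => ?_
      refine (Finset.card_biUnion_le).trans ?_
      have h5 : ∀ s ∈ (univ : Finset (Fin m)).powersetCard j,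
          (((univ : Finset (Fin n)).powersetCard (j - 1)).biUnion fun W =>
            univ.filter fun F : Fin m → Fin k → Fin n × Bool => Bad F s W).card
          ≤ n.choose (j - 1) * ((2 * (j - 1)) ^ (k * j) * (2 * n) ^ (k * (m - j))) := by
        intro s hs
        rw [mem_powersetCard] at hs
        refine (Finset.card_biUnion_le).trans ?_
        refine (Finset.sum_le_card_nsmul _ _ ((2 * (j - 1)) ^ (k * j) * (2 * n) ^ (k * (m - j)))
          fun W hW => ?_).trans ?_
        · rw [mem_powersetCard] at hW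
          rw [card_bad, hs.2, hW.2]
        · simp
      refine (Finset.sum_le_card_nsmul _ _ _ h5).trans ?_
      simp [mul_assoc]
    calc ((univ.filter fun F : Fin m → Fin k → Fin n × Bool => ¬ Sat F).card : ℝ)
        ≤ ((∑ j ∈ Finset.Icc 1 m, m.choose j * n.choose (j - 1) *
          ((2 * (j - 1)) ^ (k * j) * (2 * n) ^ (k * (m - j))) : ℕ) : ℝ) := by
          exact_mod_cast h3.trans h4
      _ = _ := by push_cast; rfl
  refine h2.trans ?_
  have h6 : ∀ j ∈ Finset.Icc 1 m, (m.choose j : ℝ) * (n.choose (j - 1)) *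
      ((2 * ((j - 1 : ℕ) : ℝ)) ^ (k * j) * (2 * (n : ℝ)) ^ (k * (m - j)))
      ≤ 1 / (n : ℝ) ^ 2 * (32 / 100) ^ j * (2 * (n : ℝ)) ^ (k * m) := by
    intro j hj
    rw [Finset.mem_Icc] at hj
    have hb := term_bound hk hn hm hj.1 hj.2
    have e1 : (2 * (n : ℝ)) ^ (k * m) = (2 * (n : ℝ)) ^ (k * j) * (2 * (n : ℝ)) ^ (k * (m - j)) := by
      rw [← pow_add, ← Nat.mul_add, Nat.add_sub_cancel' hj.2]
    have e2 : (2 * ((j - 1 : ℕ) : ℝ)) ^ (k * j)
        = (((j - 1 : ℕ) : ℝ) / n) ^ (k * j) * (2 * (n : ℝ)) ^ (k * j) := by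
      rw [← mul_pow]
      congr 1
      field_simp
    rw [e1, e2]
    calc (m.choose j : ℝ) * (n.choose (j - 1)) *
        ((((j - 1 : ℕ) : ℝ) / n) ^ (k * j) * (2 * (n : ℝ)) ^ (k * j) * (2 * (n : ℝ)) ^ (k * (m - j)))
        = ((m.choose j : ℝ) * (n.choose (j - 1)) * (((j - 1 : ℕ) : ℝ) / n) ^ (k * j)) *
          ((2 * (n : ℝ)) ^ (k * j) * (2 * (n : ℝ)) ^ (k * (m - j))) := by ring
      _ ≤ _ := mul_le_mul_of_nonneg_right hb (by positivity)
  refine (Finset.sum_le_sum h6).trans ?_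
  rw [← Finset.sum_mul, hall]
  rw [← Finset.mul_sum]
  have h7 : ∑ j ∈ Finset.Icc 1 m, (32 / 100 : ℝ) ^ j ≤ 1 := by
    have h8 : ∀ M : ℕ, ∑ j ∈ Finset.Icc 1 M, (32 / 100 : ℝ) ^ j ≤ 8 / 17 - 8 / 17 * (32 / 100) ^ M := by
      intro M
      induction M with
      | zero => simp
      | succ M ih =>
        rw [Finset.sum_Icc_succ_top (by omega)]
        have : (32 / 100 : ℝ) ^ (M + 1) = 32 / 100 * (32 / 100) ^ M := by rw [pow_succ]; ring
        rw [this]
        linarith
    have h9 := h8 m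
    have : (0 : ℝ) < (32 / 100) ^ m := by positivity
    linarith
  push_cast
  refine mul_le_mul_of_nonneg_right ?_ (by positivity)
  calc 1 / (n : ℝ) ^ 2 * ∑ j ∈ Finset.Icc 1 m, (32 / 100 : ℝ) ^ j ≤ 1 / (n : ℝ) ^ 2 * 1 := by
        gcongr
    _ = 1 / (n : ℝ) ^ 2 := mul_one _

end KSatHall
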