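import Vale.Agent.KSat.Thin

/-! # P170: thinning for `r(n)` (LIMc), abstract form -/

namespace KSat

open Finset Filter Topology

/-- The window length is at most `2 n^(1-ε)`. -/
theorem ceil_win_le {n : ℕ} (hn : 1 ≤ n) {ε : ℝ} (he : ε < 1) :
    ((⌈(n : ℝ) ^ (1 - ε)⌉₊ : ℕ) : ℝ) ≤ 2 * (n : ℝ) ^ (1 - ε) := by
  have hn1 : (1 : ℝ) ≤ n := by exact_mod_cast hn
  have h1 : (1 : ℝ) ≤ (n : ℝ) ^ (1 - ε) := Real.one_le_rpow hn1 (by linarith)
  have h2 := (Nat.ceil_lt_add_one (a := (n : ℝ) ^ (1 - ε)) (by linarith)).le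
  linarith

theorem binom_sum_one {p : ℝ} (m : ℕ) :
    ∑ M ∈ range (m + 1), (m.choose M : ℝ) * p ^ M * (1 - p) ^ (m - M) = 1 := by
  have h := add_pow p (1 - p) m
  have h1 : p + (1 - p) = 1 := by ring
  rw [h1, one_pow] at h
  refine Eq.trans (Finset.sum_congr rfl fun M _ => ?_) h.symm
  ring

theorem rr_thin_of {k : ℕ} {u : ℕ → ℕ → ℝ} {ms : ℕ → ℕ} (h0 : ∀ n m, 0 ≤ u n m)
    (hspec : ∀ n, 1 ≤ n → u n (ms n) ≤ 1 / 2)
    (hgt : ∀ n, 1 ≤ n → ∀ m, ms n < m → 1 / 2 < u n m)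
    (hbdd : ∃ R : ℝ, 0 < R ∧ ∀ n : ℕ, 1 ≤ n → (ms n : ℝ) / n ≤ R)
    (hthin : ∀ N N' m : ℕ, 1 ≤ N → N ≤ N' →
      ∑ j ∈ range (m + 1), (m.choose j : ℝ) * (((N : ℝ) / N') ^ k) ^ j
        * (1 - ((N : ℝ) / N') ^ k) ^ (m - j) * u N j ≤ u N' m)
    (hwin : ∃ ε : ℝ, 0 < ε ∧ ε < 1 / 2 ∧ ∀ A : ℝ, 0 < A → ∀ δ : ℝ, 0 < δ → ∃ n0 : ℕ, ∀ n : ℕ,
      n0 ≤ n → ∀ m : ℕ, (m : ℝ) ≤ A * n → u n m ≤ 1 - δ →
        u n (m - ⌈(n : ℝ) ^ (1 - ε)⌉₊) ≤ δ) :
    ∃ ε C : ℝ, ∃ n0 : ℕ, 0 < ε ∧ 0 < C ∧ ∀ N N' : ℕ, n0 ≤ N → N ≤ N' → N' ≤ 2 * N →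
      ((N : ℝ) / N') ^ k * ((ms N' : ℝ) / N') - C * (N : ℝ) ^ (-ε) ≤ (ms N : ℝ) / N := by
  obtain ⟨ε, he, he2, hw⟩ := hwin
  obtain ⟨R, hR, hb⟩ := hbdd
  obtain ⟨n0, hn0⟩ := hw (2 * R) (by linarith) (1 / 8) (by norm_num)
  refine ⟨ε, 2 * Real.sqrt (2 * R) + 2, max n0 1, he, by positivity, ?_⟩
  intro N N' hN hNN' hN2
  have hNn0 : n0 ≤ N := le_trans (le_max_left _ _) hN
  have hN1 : 1 ≤ N := le_trans (le_max_right _ _) hN
  have hN'1 : 1 ≤ N' := le_trans hN1 hNN'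
  have hNpos : (0 : ℝ) < N := by exact_mod_cast hN1
  have hN'pos : (0 : ℝ) < N' := by exact_mod_cast hN'1
  have hN1r : (1 : ℝ) ≤ N := by exact_mod_cast hN1
  have hNN'r : (N : ℝ) ≤ N' := by exact_mod_cast hNN'
  have hN2r : (N' : ℝ) ≤ 2 * N := by exact_mod_cast hN2
  set p : ℝ := ((N : ℝ) / N') ^ k with hp
  have hfrac0 : 0 ≤ (N : ℝ) / N' := by positivity
  have hfrac1 : (N : ℝ) / N' ≤ 1 := by rw [div_le_one hN'pos]; exact hNN'r
  have hp0 : 0 ≤ p := pow_nonneg hfrac0 k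
  have hp1 : p ≤ 1 := pow_le_one₀ hfrac0 hfrac1
  set m : ℕ := ms N' with hm
  set w : ℕ := ⌈(N : ℝ) ^ (1 - ε)⌉₊ with hwdef
  have hmR : (m : ℝ) ≤ R * N' := by
    have := hb N' hN'1
    rw [div_le_iff₀ hN'pos] at this
    exact this
  have hmR2 : (m : ℝ) ≤ 2 * R * N := by nlinarith
  -- main claim
  have hmain : p * m - 2 * Real.sqrt m ≤ (ms N : ℝ) + w := by
    by_contra hcon
    push Not at hcon
    have hmpos : 0 < m := by
      rcases Nat.eq_zero_or_pos m with h | h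
      · rw [h] at hcon
        simp at hcon
        have : (0 : ℝ) ≤ (ms N : ℝ) + w := by positivity
        linarith
      · exact h
    have hmposr : (0 : ℝ) < m := by exact_mod_cast hmpos
    have hsq : 0 < Real.sqrt m := Real.sqrt_pos.mpr hmposr
    have hch := cheb hp0 hp1 (s := 2 * Real.sqrt m) (by positivity) m
    have hrhs : (m : ℝ) / (4 * (2 * Real.sqrt m) ^ 2) = 1 / 16 := by
      rw [mul_pow, Real.sq_sqrt hmposr.le]
      field_simp
      norm_num
    rw [hrhs] at hch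
    have hth := hthin N N' m hN1 hNN'
    have hsp := hspec N' hN'1
    -- split the binomial sum
    have hone := binom_sum_one (p := p) m
    rw [← Finset.sum_filter_add_sum_filter_not (range (m + 1))
      (fun M : ℕ => 2 * Real.sqrt m ≤ |(M : ℝ) - m * p|)] at hone
    have hlow : (7 / 8 : ℝ) * ∑ M ∈ (range (m + 1)).filter
        (fun M : ℕ => ¬ 2 * Real.sqrt m ≤ |(M : ℝ) - m * p|),
          (m.choose M : ℝ) * p ^ M * (1 - p) ^ (m - M) ≤
        ∑ j ∈ range (m + 1), (m.choose j : ℝ) * p ^ j * (1 - p) ^ (m - j) * u N j := by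
      rw [Finset.mul_sum]
      have hterm : ∀ j, 0 ≤ (m.choose j : ℝ) * p ^ j * (1 - p) ^ (m - j) := by
        intro j
        have : 0 ≤ 1 - p := by linarith
        positivity
      calc _ ≤ ∑ j ∈ (range (m + 1)).filter
            (fun M : ℕ => ¬ 2 * Real.sqrt m ≤ |(M : ℝ) - m * p|),
              (m.choose j : ℝ) * p ^ j * (1 - p) ^ (m - j) * u N j := by
            refine Finset.sum_le_sum fun j hj => ?_
            rw [Finset.mem_filter] at hj
            obtain ⟨hj1, hj2⟩ := hj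
            push Not at hj2
            have hjm : j ≤ m := by
              have := Finset.mem_range.mp hj1
              omega
            have hj3 := (abs_lt.mp hj2).1
            have hjw : (ms N : ℝ) + w < j := by nlinarith
            have hjw' : ms N + w < j := by exact_mod_cast hjw
            have hu : 7 / 8 ≤ u N j := by
              by_contra hc
              push Not at hc
              have h1 := hn0 N hNn0 j (by
                have : (j : ℝ) ≤ m := by exact_mod_cast hjm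
                linarith) (by linarith)
              have h2 := hgt N hN1 (j - w) (by omega)
              linarith
            have := hterm j
            nlinarith
        _ ≤ _ := by
            refine Finset.sum_le_sum_of_subset_of_nonneg (Finset.filter_subset _ _) ?_
            intro j _ _
            exact mul_nonneg (hterm j) (h0 _ _)
    linarith
  -- conclusion
  have hsqm : Real.sqrt m ≤ Real.sqrt (2 * R) * (N : ℝ) ^ (1 - ε) := by
    have h1 : Real.sqrt m ≤ Real.sqrt (2 * R * N) := Real.sqrt_le_sqrt hmR2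
    rw [Real.sqrt_mul (by positivity)] at h1
    have h2 : Real.sqrt (N : ℝ) ≤ (N : ℝ) ^ (1 - ε) := by
      rw [Real.sqrt_eq_rpow]
      exact Real.rpow_le_rpow_of_exponent_le hN1r (by linarith)
    exact le_trans h1 (mul_le_mul_of_nonneg_left h2 (Real.sqrt_nonneg _))
  have hwle := ceil_win_le hN1 (ε := ε) (by linarith)
  rw [← hwdef] at hwle
  have hNe : (N : ℝ) ^ (1 - ε) = (N : ℝ) ^ (-ε) * N := by
    rw [← Real.rpow_add_one hNpos.ne']
    congr 1
    ring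
  rw [hNe] at hsqm hwle
  rw [le_div_iff₀ hNpos]
  have hNe0 : 0 ≤ (N : ℝ) ^ (-ε) := Real.rpow_nonneg hNpos.le _
  have hpm : p * ((m : ℝ) / N') * N ≤ p * m := by
    rw [mul_assoc]
    apply mul_le_mul_of_nonneg_left _ hp0
    rw [div_mul_eq_mul_div, div_le_iff₀ hN'pos]
    exact mul_le_mul_of_nonneg_left hNN'r (Nat.cast_nonneg _)
  nlinarith [hpm, hmain, hsqm, hwle]

end KSat
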