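import Mathlib

/-! # P170: existence of the threshold from the window and the convergence of `r(n)` (LIMe) -/

namespace KSat

open Finset Filter Topology

theorem limit_of {u : ℕ → ℕ → ℝ} {ms : ℕ → ℕ}
    (h0 : ∀ n m, 0 ≤ u n m) (h1 : ∀ n m, u n m ≤ 1)
    (hmono : ∀ n, 1 ≤ n → ∀ m m', m ≤ m' → u n m ≤ u n m')
    (hspec : ∀ n, 1 ≤ n → u n (ms n) ≤ 1 / 2)
    (hle : ∀ n m, 1 ≤ n → u n m ≤ 1 / 2 → m ≤ ms n)
    (hwin : ∃ ε : ℝ, 0 < ε ∧ ε < 1 / 2 ∧ ∀ A : ℝ, 0 < A → ∀ δ : ℝ, 0 < δ → ∃ n0 : ℕ, ∀ n : ℕ,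
      n0 ≤ n → ∀ m : ℕ, (m : ℝ) ≤ A * n → u n m ≤ 1 - δ →
        u n (m - ⌈(n : ℝ) ^ (1 - ε)⌉₊) ≤ δ)
    (hconv : ∃ β : ℝ, Tendsto (fun n : ℕ => (ms n : ℝ) / n) atTop (𝓝 β))
    (hpos : ∃ c : ℝ, 0 < c ∧ Tendsto (fun n : ℕ => u n ⌊c * n⌋₊) atTop (𝓝 0)) :
    ∃ α : ℝ, 0 < α ∧
      (∀ c : ℝ, 0 ≤ c → c < α → Tendsto (fun n : ℕ => u n ⌊c * n⌋₊) atTop (𝓝 0)) ∧
      (∀ c : ℝ, α < c → Tendsto (fun n : ℕ => u n ⌊c * n⌋₊) atTop (𝓝 1)) := by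
  obtain ⟨ε, he, he2, hw⟩ := hwin
  obtain ⟨β, hβ⟩ := hconv
  obtain ⟨c0, hc0, hc0lim⟩ := hpos
  -- the window length is `o(n)`
  have hwlen : Tendsto (fun n : ℕ => ((⌈(n : ℝ) ^ (1 - ε)⌉₊ : ℕ) : ℝ) / n) atTop (𝓝 0) := by
    have hub : Tendsto (fun n : ℕ => (n : ℝ) ^ (-ε) + 1 / (n : ℝ)) atTop (𝓝 (0 + 0)) := by
      have t2 : Tendsto (fun N : ℕ => (N : ℝ) ^ (-ε)) atTop (𝓝 0) :=
        (tendsto_rpow_neg_atTop he).comp tendsto_natCast_atTop_atTop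
      exact t2.add tendsto_one_div_atTop_nhds_zero_nat
    rw [add_zero] at hub
    refine squeeze_zero' (Eventually.of_forall fun n => by positivity) ?_ hub
    filter_upwards [eventually_ge_atTop 1] with n hn
    have hnpos : (0 : ℝ) < n := by exact_mod_cast hn
    have h2 : ((⌈(n : ℝ) ^ (1 - ε)⌉₊ : ℕ) : ℝ) ≤ (n : ℝ) ^ (1 - ε) + 1 :=
      (Nat.ceil_lt_add_one (Real.rpow_nonneg hnpos.le _)).le
    rw [div_le_iff₀ hnpos]
    have h3 : (n : ℝ) ^ (1 - ε) = (n : ℝ) ^ (-ε) * n := by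
      rw [← Real.rpow_add_one hnpos.ne']
      congr 1
      ring
    have h4 : ((n : ℝ) ^ (-ε) + 1 / (n : ℝ)) * n = (n : ℝ) ^ (-ε) * n + 1 := by
      field_simp
    rw [h4]
    linarith [h2, h3.le, h3.ge]
  -- floors
  have hfloor : ∀ c : ℝ, 0 ≤ c → Tendsto (fun n : ℕ => ((⌊c * n⌋₊ : ℕ) : ℝ) / n) atTop (𝓝 c) := by
    intro c hc
    have hlow : Tendsto (fun n : ℕ => c - 1 / (n : ℝ)) atTop (𝓝 (c - 0)) :=
      tendsto_const_nhds.sub tendsto_one_div_atTop_nhds_zero_nat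
    rw [sub_zero] at hlow
    refine tendsto_of_tendsto_of_tendsto_of_le_of_le' hlow tendsto_const_nhds ?_ ?_
    · filter_upwards [eventually_ge_atTop 1] with n hn
      have hnpos : (0 : ℝ) < n := by exact_mod_cast hn
      rw [le_div_iff₀ hnpos]
      have h2 := (Nat.lt_floor_add_one (c * n)).le
      have h4 : (c - 1 / (n : ℝ)) * n = c * n - 1 := by field_simp
      rw [h4]
      linarith
    · filter_upwards [eventually_ge_atTop 1] with n hn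
      have hnpos : (0 : ℝ) < n := by exact_mod_cast hn
      rw [div_le_iff₀ hnpos]
      exact Nat.floor_le (by positivity)
  -- positivity of the limit
  have hβpos : c0 ≤ β := by
    refine le_of_tendsto_of_tendsto (hfloor c0 hc0.le) hβ ?_
    have hev : ∀ᶠ n : ℕ in atTop, u n ⌊c0 * n⌋₊ < 1 / 2 :=
      hc0lim.eventually (gt_mem_nhds (by norm_num))
    filter_upwards [hev, eventually_ge_atTop 1] with n hn hn1
    have := hle n _ hn1 hn.le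
    gcongr
  have hβ0 : 0 < β := lt_of_lt_of_le hc0 hβpos
  -- upper bound `ms n ≤ (β+1) n`
  have hA : ∀ᶠ n : ℕ in atTop, (ms n : ℝ) ≤ (β + 1) * n := by
    have hev : ∀ᶠ n : ℕ in atTop, (ms n : ℝ) / n < β + 1 :=
      hβ.eventually (gt_mem_nhds (by linarith))
    filter_upwards [hev, eventually_ge_atTop 1] with n hn hn1
    have hnpos : (0 : ℝ) < n := by exact_mod_cast hn1
    rw [div_lt_iff₀ hnpos] at hn
    exact hn.le
  refine ⟨β, hβ0, ?_, ?_⟩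
  · intro c hc hcβ
    rw [Metric.tendsto_atTop']
    intro δ0 hδ0
    set δ : ℝ := min (δ0 / 2) (1 / 2) with hδ
    have hδpos : 0 < δ := by positivity
    have hδhalf : δ ≤ 1 / 2 := min_le_right _ _
    have hδδ : δ < δ0 := lt_of_le_of_lt (min_le_left _ _) (by linarith)
    obtain ⟨n0, hn0⟩ := hw (β + 1) (by linarith) δ hδpos
    -- eventually floor (c n) + window ≤ ms n
    have hsum : Tendsto (fun n : ℕ => ((⌊c * n⌋₊ : ℕ) : ℝ) / n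
        + ((⌈(n : ℝ) ^ (1 - ε)⌉₊ : ℕ) : ℝ) / n) atTop (𝓝 (c + 0)) := (hfloor c hc).add hwlen
    rw [add_zero] at hsum
    have hev : ∀ᶠ n : ℕ in atTop, ((⌊c * n⌋₊ : ℕ) : ℝ) / n
        + ((⌈(n : ℝ) ^ (1 - ε)⌉₊ : ℕ) : ℝ) / n < (ms n : ℝ) / n := hsum.eventually_lt hβ hcβ
    have hall := (hev.and (hA.and ((eventually_ge_atTop n0).and (eventually_ge_atTop 1))))
    obtain ⟨N, hN⟩ := eventually_atTop.1 hall
    refine ⟨N, fun n hn => ?_⟩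
    obtain ⟨e1, e2, e3, e4⟩ := hN n hn.le
    have hnpos : (0 : ℝ) < n := by exact_mod_cast e4
    have hu : u n (ms n - ⌈(n : ℝ) ^ (1 - ε)⌉₊) ≤ δ :=
      hn0 n e3 (ms n) e2 (by have := hspec n e4; linarith)
    have hlt : ((⌊c * n⌋₊ : ℕ) : ℝ) + ((⌈(n : ℝ) ^ (1 - ε)⌉₊ : ℕ) : ℝ) < (ms n : ℝ) := by
      rw [← add_div, div_lt_div_iff_of_pos_right hnpos] at e1
      exact e1
    have hlt' : ⌊c * n⌋₊ + ⌈(n : ℝ) ^ (1 - ε)⌉₊ < ms n := by exact_mod_cast hlt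
    have hle2 : ⌊c * n⌋₊ ≤ ms n - ⌈(n : ℝ) ^ (1 - ε)⌉₊ := by omega
    have := hmono n e4 _ _ hle2
    rw [Real.dist_eq, sub_zero, abs_of_nonneg (h0 _ _)]
    linarith
  · intro c hcβ
    have hc : 0 ≤ c := by linarith
    rw [Metric.tendsto_atTop']
    intro δ0 hδ0
    set δ : ℝ := min (δ0 / 2) (1 / 2) with hδ
    have hδpos : 0 < δ := by positivity
    have hδhalf : δ ≤ 1 / 2 := min_le_right _ _
    have hδδ : δ < δ0 := lt_of_le_of_lt (min_le_left _ _) (by linarith)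
    obtain ⟨n0, hn0⟩ := hw c (by linarith) δ hδpos
    have hsum : Tendsto (fun n : ℕ => (ms n : ℝ) / n
        + ((⌈(n : ℝ) ^ (1 - ε)⌉₊ : ℕ) : ℝ) / n) atTop (𝓝 (β + 0)) := hβ.add hwlen
    rw [add_zero] at hsum
    have hev : ∀ᶠ n : ℕ in atTop, (ms n : ℝ) / n
        + ((⌈(n : ℝ) ^ (1 - ε)⌉₊ : ℕ) : ℝ) / n < ((⌊c * n⌋₊ : ℕ) : ℝ) / n :=
      hsum.eventually_lt (hfloor c hc) hcβ
    have hall := (hev.and ((eventually_ge_atTop n0).and (eventually_ge_atTop 1)))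
    obtain ⟨N, hN⟩ := eventually_atTop.1 hall
    refine ⟨N, fun n hn => ?_⟩
    obtain ⟨e1, e3, e4⟩ := hN n hn.le
    have hnpos : (0 : ℝ) < n := by exact_mod_cast e4
    have hlt : (ms n : ℝ) + ((⌈(n : ℝ) ^ (1 - ε)⌉₊ : ℕ) : ℝ) < ((⌊c * n⌋₊ : ℕ) : ℝ) := by
      rw [← add_div, div_lt_div_iff_of_pos_right hnpos] at e1
      exact e1
    have hlt' : ms n + ⌈(n : ℝ) ^ (1 - ε)⌉₊ < ⌊c * n⌋₊ := by exact_mod_cast hlt
    have hbig : 1 - δ < u n ⌊c * n⌋₊ := by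
      by_contra hcon
      push Not at hcon
      have h2 := hn0 n e3 ⌊c * n⌋₊ (Nat.floor_le (by positivity)) hcon
      have h3 := hle n _ e4 (le_trans h2 hδhalf)
      omega
    rw [Real.dist_eq, abs_sub_comm, abs_of_nonneg (by have := h1 n ⌊c * n⌋₊; linarith)]
    linarith

end KSat
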