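import Vale.Agent.KSat.WinB

/-! # P170: the polynomial window (piece WIN), from the explicit second moment bound -/

namespace KSat

open Finset Filter Topology

theorem window_of' {k : ℕ} (hk : 3 ≤ k) (A δ : ℝ) (hA : 0 < A) (hd : 0 < δ)
    (HU : ∀ n : ℕ, 1 ≤ n → ∀ (a : Lit (Fin n)) (j L T1 M : ℕ), 1 ≤ T1 → j + L ≤ M →
      avg (fun F : Fin j → Cl (Fin n) k => NN k L T1 (cutF univ F) a ^ 2) ≤
        Real.exp (2 * k * M / Fintype.card (Fin n)) * (32 * ((T1 : ℝ) ^ (-(1 / (k : ℝ)))) ^ 2 +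
          k * M / (Fintype.card (Fin n) : ℝ) ^ 2)) :
    ∃ ε : ℝ, 0 < ε ∧ ε < 1 / 2 ∧ ∃ n0 : ℕ, ∀ n : ℕ, n0 ≤ n →
      ∀ m : ℕ, (m : ℝ) ≤ A * n → u k n m ≤ 1 - δ → u k n (m - ⌈(n : ℝ) ^ (1 - ε)⌉₊) ≤ δ := by
  refine window_of hk A δ hA hd ⟨Real.exp (2 * k * A) * (32 + k * A), by positivity,
    fun n hn a j L T' hT hjL => ?_⟩
  rw [It_eq_avg k j (fun S => NN k L T' S a ^ 2)]
  refine (HU n (by omega) a j L T' (j + L) hT le_rfl).trans ?_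
  rw [Fintype.card_fin]
  have hn0 : (0 : ℝ) < n := by
    have : 0 < n := by omega
    exact_mod_cast this
  have hk0 : (0 : ℝ) ≤ k := Nat.cast_nonneg k
  have h1 : Real.exp (2 * k * ((j + L : ℕ) : ℝ) / n) ≤ Real.exp (2 * k * A) := by
    refine Real.exp_le_exp.2 ?_
    rw [div_le_iff₀ hn0]
    have := mul_le_mul_of_nonneg_left hjL (by positivity : (0 : ℝ) ≤ 2 * k)
    linarith
  have h2 : ((T' : ℝ) ^ (-(1 / (k : ℝ)))) ^ 2 = (T' : ℝ) ^ (-(2 / (k : ℝ))) := by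
    rw [← Real.rpow_natCast, ← Real.rpow_mul (Nat.cast_nonneg _)]
    congr 1
    push_cast
    ring
  have h3 : k * ((j + L : ℕ) : ℝ) / (n : ℝ) ^ 2 ≤ k * A * (1 / n) := by
    rw [div_le_iff₀ (by positivity)]
    have h4 := mul_le_mul_of_nonneg_left hjL hk0
    have h5 : k * A * (1 / (n : ℝ)) * (n : ℝ) ^ 2 = k * (A * n) := by
      field_simp
    rw [h5]
    exact h4
  rw [h2]
  have h4 : 0 ≤ (T' : ℝ) ^ (-(2 / (k : ℝ))) := by positivity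
  have h5 : 0 ≤ 1 / (n : ℝ) := by positivity
  have h6 : 32 * (T' : ℝ) ^ (-(2 / (k : ℝ))) + k * ((j + L : ℕ) : ℝ) / (n : ℝ) ^ 2 ≤
      (32 + k * A) * ((T' : ℝ) ^ (-(2 / (k : ℝ))) + 1 / n) := by
    have h7 : 0 ≤ k * A := by positivity
    nlinarith [mul_nonneg h7 h4]
  calc Real.exp (2 * k * ((j + L : ℕ) : ℝ) / n) *
        (32 * (T' : ℝ) ^ (-(2 / (k : ℝ))) + k * ((j + L : ℕ) : ℝ) / (n : ℝ) ^ 2)
      ≤ Real.exp (2 * k * A) * ((32 + k * A) * ((T' : ℝ) ^ (-(2 / (k : ℝ))) + 1 / n)) := by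
        refine mul_le_mul h1 h6 (by positivity) (Real.exp_pos _).le
    _ = _ := by ring

end KSat
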